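import Vale.Agent.P181.TB.Defs
import Vale.Agent.P181.TL.H797.CoreN
import Vale.Agent.P181.TL.H266.CoreW
import Vale.Agent.P181.TL.H976.Two

set_option autoImplicit false

/-!
# P181, line TB, block TB6: two long rows without a dominating first row
-/

namespace Vale.Agent.P181.TB.H118

open Vale.Agent.P181.T4 (HW)
open Vale.Agent.P181.H280 (plethMult)
open Vale.Agent.P181.SZ
open Vale.Agent.P181.TL (KK dn2 UpB BalB)
open Vale.Agent.P181.TL.H797 (bal bal_le sum_bal)
open Vale.Agent.P181.TL.H976 (NearLin FewTwo)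

/-- Removing several letters with one row. -/
lemma mono_iter (hM : MonoTB) (a k : ℕ) (lam : Fin (k + 1) → ℕ) (b : ℕ) :
    ∀ (e : ℕ) (mu : Fin (k + 1) → ℕ), mu 0 = lam 0 + a * e →
      (∀ i : Fin k, mu i.succ = lam i.succ) →
      plethMult b a (k + 1) lam ≤ plethMult (b + e) a (k + 1) mu := by
  intro e
  induction e with
  | zero =>
    intro mu h0 h1
    have h : mu = lam := by
      funext i
      refine Fin.cases ?_ (fun i => ?_) i
      · rw [h0, mul_zero, add_zero]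
      · exact h1 i
    rw [h, add_zero]
  | succ e ih =>
    intro mu h0 h1
    have h2 := ih (Fin.cons (lam 0 + a * e) fun i => lam i.succ) rfl (fun i => rfl)
    refine h2.trans (hM a (b + e) k _ mu ?_ fun i => ?_)
    · rw [h0, Fin.cons_zero]
      ring
    · rw [h1]
      rfl

/-- The core in natural numbers. -/
theorem core (h1 : UpB) (h2 : BalB) (hL : LowTB) (hM : MonoTB) (a b k : ℕ)
    (lam : Fin (k + 2) → ℕ) (hsum : ∑ i, lam i = a * b) (h01 : lam 1 ≤ lam 0) (ha : 0 < a)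
    (hab : 10 ^ 13 * a ≤ b) (hl1 : 10 ^ 13 * a ^ 2 ≤ lam 1)
    (hD : 10 ^ 13 * b * dn2 lam ≤ a ^ 3) (hfew : b ≤ dn2 lam + a) :
    plethMult a b (k + 2) lam ≤ plethMult b a (k + 2) lam := by
  obtain ⟨D, hDd⟩ : ∃ D, D = dn2 lam := ⟨_, rfl⟩
  rw [← hDd] at hD hfew
  have hDa : 10 ^ 12 * a ≤ D := by omega
  have ha500 : 500 ≤ a := by
    by_contra hc
    have h3 : a ^ 3 ≤ 500 * 500 * a := by
      have : a ≤ 500 := by omega
      calc a ^ 3 = a * a * a := by ring
        _ ≤ 500 * 500 * a := by gcongr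
    have h4 : a ≤ D := by omega
    have h5 : 10 ^ 13 * 1 * a ≤ 10 ^ 13 * b * D := by
      have : 1 ≤ b := by omega
      gcongr
    omega
  have hbin := TL.H266.bin a b D 40 5 ha (by norm_num) (by norm_num) hfew (by
    calc 10 ^ 6 * (40 * 5 ^ 2) ^ 2 * a = 10 ^ 12 * a := by norm_num
      _ ≤ D := hDa)
  obtain ⟨X, hX⟩ : ∃ X, X = D / a / 5 / (2 * 40 * 5) := ⟨_, rfl⟩
  rw [← hX] at hbin
  obtain ⟨hnum, hX1⟩ := hbin
  -- the reduced shape
  obtain ⟨e, he⟩ : ∃ e, e = (lam 0 - lam 1) / a := ⟨_, rfl⟩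
  obtain ⟨d, hd⟩ : ∃ d, d = (lam 0 - lam 1) % a := ⟨_, rfl⟩
  have hda : d < a := by
    rw [hd]
    exact Nat.mod_lt _ ha
  have hde : lam 0 = lam 1 + d + a * e := by
    have := Nat.div_add_mod (lam 0 - lam 1) a
    rw [← he, ← hd] at this
    omega
  have hsplit : ∑ i, lam i = lam 0 + (lam 1 + D) := by
    rw [Fin.sum_univ_succ, Fin.sum_univ_succ, hDd]
    rfl
  have heb : e ≤ b := by
    have h3 : a * e ≤ a * b := by omega
    exact Nat.le_of_mul_le_mul_left h3 ha
  obtain ⟨b', hb'⟩ : ∃ b', b = b' + e := ⟨b - e, by omega⟩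
  obtain ⟨mu, hmu⟩ : ∃ mu : Fin (k + 2) → ℕ, mu = Fin.cons (lam 1 + d) fun i => lam i.succ :=
    ⟨_, rfl⟩
  have hmu0 : mu 0 = lam 1 + d := by rw [hmu]; rfl
  have hmus : ∀ i : Fin (k + 1), mu i.succ = lam i.succ := fun i => by rw [hmu]; rfl
  have hmu1 : mu 1 = lam 1 := hmus 0
  have hmut : (fun i : Fin k => mu i.succ.succ) = fun i => lam i.succ.succ := by
    funext i
    exact hmus i.succ
  have hmuD : dn2 mu = D := by
    rw [hDd]
    unfold dn2
    exact Finset.sum_congr rfl fun i _ => hmus i.succ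
  have hmusum : ∑ i, mu i = a * b' := by
    have h3 : ∑ i, mu i = mu 0 + (mu 1 + D) := by
      rw [Fin.sum_univ_succ, Fin.sum_univ_succ, ← hmuD]
      rfl
    have h4 : a * b = a * b' + a * e := by rw [hb']; ring
    rw [h3, hmu0, hmu1]
    omega
  have hb20 : 4 * 5 * a ≤ b' := by
    have h3 : 2 * (10 ^ 13 * a ^ 2) ≤ a * b' := by
      have h4 : ∑ i, mu i = mu 0 + (mu 1 + D) := by
        rw [Fin.sum_univ_succ, Fin.sum_univ_succ, ← hmuD]
        rfl
      rw [← hmusum, h4, hmu0, hmu1]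
      omega
    have h5 : a * (4 * 5 * a) ≤ a * b' := by
      calc a * (4 * 5 * a) = 20 * a ^ 2 := by ring
        _ ≤ 2 * (10 ^ 13 * a ^ 2) := by omega
        _ ≤ a * b' := h3
    exact Nat.le_of_mul_le_mul_left h5 ha
  have hlast : 16 * (2 * (D / a / 5) + 5) * b' ≤ 5 * a ^ 2 := by
    have h3 : 16 * (2 * (D / a / 5) + 5) * a ≤ 8 * D := by
      have h4 : D / a / 5 * 5 ≤ D / a := Nat.div_mul_le_self _ _
      have h5 : D / a * a ≤ D := Nat.div_mul_le_self _ _
      have h6 : D / a / 5 * a * 5 ≤ D := by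
        calc D / a / 5 * a * 5 = D / a / 5 * 5 * a := by ring
          _ ≤ D / a * a := Nat.mul_le_mul_right _ h4
          _ ≤ D := h5
      have h7 : 16 * (2 * (D / a / 5) + 5) * a = 32 * (D / a / 5 * a) + 80 * a := by ring
      rw [h7]
      omega
    have h8 : 8 * (b * D) ≤ a ^ 3 := by
      calc 8 * (b * D) ≤ 10 ^ 13 * (b * D) := Nat.mul_le_mul_right _ (by norm_num)
        _ = 10 ^ 13 * b * D := by ring
        _ ≤ a ^ 3 := hD
    have h9 : a * (16 * (2 * (D / a / 5) + 5) * b') ≤ a * (5 * a ^ 2) := by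
      calc a * (16 * (2 * (D / a / 5) + 5) * b')
          = 16 * (2 * (D / a / 5) + 5) * a * b' := by ring
        _ ≤ 8 * D * b' := Nat.mul_le_mul_right _ h3
        _ ≤ 8 * D * b := Nat.mul_le_mul_left _ (by omega)
        _ = 8 * (b * D) := by ring
        _ ≤ a ^ 3 := h8
        _ ≤ 5 * a ^ 3 := by omega
        _ = a * (5 * a ^ 2) := by ring
    exact Nat.le_of_mul_le_mul_left h9 ha
  -- the chain
  have e1 := h1 a b k lam
  have e2 := h2 k a (fun i => lam i.succ.succ) (bal a D) ha (bal_le a _)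
    ((sum_bal ha _).trans hDd)
  have e3 := hL a b' k 5 40 X mu (bal a D) hmusum (by norm_num) (by omega) (by norm_num) hX1
    (by
      rw [hmuD, hX]
      exact Nat.mul_div_le _ _)
    (by
      intro i
      rw [hmuD]
      rfl)
    (by rw [hmu0, hmu1]; omega) (by rw [hmu0, hmu1]; omega) hb20 (by rw [hmuD]; exact hlast)
  have e4 : plethMult b' a (k + 2) mu ≤ plethMult b a (k + 2) lam := by
    rw [hb']
    refine mono_iter hM a (k + 1) mu b' e lam ?_ fun i => (hmus i).symm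
    rw [hmu0, hde]
  have e2' : Module.finrank ℂ (HW k (Fin a) fun i => lam i.succ.succ) ≤
      (a + D - 1).choose D *
        Module.finrank ℂ (KK k (Fin a) (bal a D) fun i => lam i.succ.succ) := by
    have hDs : D = ∑ i : Fin k, lam i.succ.succ := hDd
    rw [← hDs] at e2
    exact e2
  rw [hmut] at e3
  calc plethMult a b (k + 2) lam
      ≤ (a + b).choose a * Module.finrank ℂ (HW k (Fin a) fun i => lam i.succ.succ) := e1
    _ ≤ (a + b).choose a * ((a + D - 1).choose D *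
        Module.finrank ℂ (KK k (Fin a) (bal a D) fun i => lam i.succ.succ)) :=
          Nat.mul_le_mul_left _ e2'
    _ = (a + b).choose a * (a + D - 1).choose D *
        Module.finrank ℂ (KK k (Fin a) (bal a D) fun i => lam i.succ.succ) := by ring
    _ ≤ X ^ ((5 - 1) * a) *
        Module.finrank ℂ (KK k (Fin a) (bal a D) fun i => lam i.succ.succ) :=
          Nat.mul_le_mul_right _ hnum
    _ ≤ plethMult b' a (k + 2) mu := e3
    _ ≤ plethMult b a (k + 2) lam := e4

/-- **(TB6)**. -/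
theorem twoBal (h1 : UpB) (h2 : BalB) (hL : LowTB) (hM : MonoTB) (hN : NearLin)
    (hF : FewTwo) : TwoBal := by
  obtain ⟨C₁, c, hN⟩ := hN
  refine ⟨max C₁ (10 ^ 13), lt_of_lt_of_le (by norm_num) (le_max_right _ _), ?_⟩
  intro a b k lam hlam hsum hab hl1 hD
  obtain ⟨C, hC⟩ : ∃ C, C = max C₁ ((10 : ℝ) ^ 13) := ⟨_, rfl⟩
  rw [← hC] at hab hl1 hD
  have hC1 : C₁ ≤ C := by rw [hC]; exact le_max_left _ _
  have hC2 : (10 : ℝ) ^ 13 ≤ C := by rw [hC]; exact le_max_right _ _
  by_cases ha : a ≤ 1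
  · refine hN a b ?_ _ lam
    have h3 : (1 + Real.log a) ^ c = 1 := by
      have h4 : Real.log a = 0 := by
        have h5 : a = 0 ∨ a = 1 := by omega
        rcases h5 with h5 | h5 <;> simp [h5]
      rw [h4, add_zero, one_pow]
    rw [h3, mul_one]
    exact (mul_le_mul_of_nonneg_right hC1 (Nat.cast_nonneg a)).trans hab
  by_cases hfew : dn2 lam + a ≤ b + 1
  · exact hF a b k lam (by omega) hfew
  have n1 : 10 ^ 13 * a ≤ b := by
    have : (10 : ℝ) ^ 13 * a ≤ b :=
      (mul_le_mul_of_nonneg_right hC2 (Nat.cast_nonneg a)).trans hab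
    exact_mod_cast this
  have n2 : 10 ^ 13 * a ^ 2 ≤ lam 1 := by
    have : (10 : ℝ) ^ 13 * (a : ℝ) ^ 2 ≤ lam 1 :=
      (mul_le_mul_of_nonneg_right hC2 (by positivity)).trans hl1
    exact_mod_cast this
  have n3 : 10 ^ 13 * b * dn2 lam ≤ a ^ 3 := by
    have : (10 : ℝ) ^ 13 * b * dn2 lam ≤ (a : ℝ) ^ 3 := by
      refine le_trans ?_ hD
      gcongr
    exact_mod_cast this
  exact core h1 h2 hL hM a b k lam hsum (hlam (Fin.zero_le 1)) (by omega) n1 n2 n3 (by omega)

end Vale.Agent.P181.TB.H118
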